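import Vale.Agent.P088.LocMain
import Vale.Agent.P088.CcoB
import Vale.Agent.P088.EBm
import Vale.Agent.P088.EBn
import Vale.Agent.P088.EBx
import Vale.Agent.P088.Ebc
import Vale.Agent.P088.Ext
import Vale.Agent.P088.FockAlg
import Vale.Agent.P088.FockBes
import Vale.Agent.P088.FockDense
import Vale.Agent.P088.FockEx
import Vale.Agent.P088.FockN1
import Vale.Agent.P088.Frame
import Vale.Agent.P088.GC
import Vale.Agent.P088.GI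
import Vale.Agent.P088.GI0
import Vale.Agent.P088.GnMain
import Vale.Agent.P088.IdCI
import Vale.Agent.P088.IdDI
import Vale.Agent.P088.IdMI
import Vale.Agent.P088.IsoEnd
import Vale.Agent.P088.IsoInter
import Vale.Agent.P088.IsoRig
import Vale.Agent.P088.JetMain
import Vale.Agent.P088.LQ
import Vale.Agent.P088.LemQ
import Vale.Agent.P088.Lt1Main
import Vale.Agent.P088.MBes
import Vale.Agent.P088.MEm
import Vale.Agent.P088.ManMain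
import Vale.Agent.P088.Mom
import Vale.Agent.P088.NZ
import Vale.Agent.P088.NZ1
import Vale.Agent.P088.NZI
import Vale.Agent.P088.NZM
import Vale.Agent.P088.NZN
import Vale.Agent.P088.NZT
import Vale.Agent.P088.Nzp
import Vale.Agent.P088.Nzp1
import Vale.Agent.P088.Nzp2
import Vale.Agent.P088.OUT
import Vale.Agent.P088.PL1
import Vale.Agent.P088.PL2
import Vale.Agent.P088.PL3
import Vale.Agent.P088.PLa
import Vale.Agent.P088.PLm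
import Vale.Agent.P088.Par
import Vale.Agent.P088.Prof
import Vale.Agent.P088.Qcv
import Vale.Agent.P088.R1
import Vale.Agent.P088.RE
import Vale.Agent.P088.Red
import Vale.Agent.P088.SL1
import Vale.Agent.P088.SL3
import Vale.Agent.P088.SbAlg
import Vale.Agent.P088.SbComp
import Vale.Agent.P088.SbLin
import Vale.Agent.P088.St1Main
import Vale.Agent.P088.TcMain
import Vale.Agent.P088.V2
import Vale.Agent.P088.Wconv
import Vale.Agent.P088.Ww0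
import Vale.Agent.P088.Ww0a
import Vale.Agent.P088.Ww1
import Vale.Agent.P088.Ww2
import Vale.Agent.P088.Ww3
import Vale.Agent.P088.Ww4
import Vale.Agent.P088.Ww5
import Vale.Agent.P088.Ww6
import Vale.Agent.P088.Ww7
import Vale.Agent.P088.Ww8
import Vale.Agent.P088.Wwh
import Vale.Agent.P088.Wwm
import Vale.Agent.P088.WwmA
import Vale.Agent.P088.Wwq
import Vale.Agent.P088.XY
import Vale.Agent.P088.SL2
import Vale.Agent.P088.R2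
import Vale.Agent.P088.NZB

/-!
# P088: assembly
-/

namespace Vale.Agent.P088
namespace Asm

theorem a_wq : S_wq :=
  s_wq s_w0

theorem a_wm : S_wm :=
  s_wm s_w0 a_wq

theorem a_w2 : S_w2 :=
  s_w2 s_w0 a_wq a_wm

theorem a_conv : S_conv :=
  s_conv s_w0 a_w2 a_wm

theorem a_w1 : S_w1 :=
  s_w1 s_w0 a_wq a_wm s_hess a_w2

theorem a_w1x : S_w1x :=
  s_w1x s_w0 a_wm

theorem a_w3 : S_w3 :=
  s_w3 s_w0 a_wq a_w1 a_w1x a_w2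

theorem a_w4 : S_w4 :=
  s_w4 s_w0 a_wq s_hess a_w1 a_w1x a_w2 a_w3

theorem a_w5 : S_w5 :=
  s_w5 s_w0 a_wq s_hess a_conv a_w1 a_w1x a_w2 a_w3 a_w4

theorem a_GI0 : S_GI0 :=
  s_GI0 s_w0 s_DI s_MI s_MB

theorem a_wh : S_wh :=
  s_wh s_w0 a_wq

theorem a_PL1 : S_PL1 :=
  s_PL1 s_w0 a_wq a_wh s_hess a_conv a_w1 a_w1x a_w2

theorem a_PL2 : S_PL2 :=
  s_PL2 s_w0 a_wq s_hess a_w1 a_w2

theorem a_w6 : S_w6 :=
  s_w6 s_w0 a_wq a_w1 a_w2 a_w3 a_w5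

theorem a_PL3 : S_PL3 :=
  s_PL3 s_w0 a_wq a_w1 a_w2 a_w4 a_w6

theorem a_PL : S_PL :=
  s_PL s_w0 a_wq a_w2 a_w5 s_PLa a_PL1 a_PL2 a_PL3

theorem a_ebc : S_ebc :=
  s_ebc s_w0 a_wq s_hess a_w1 a_w2 s_ccoB a_wm

theorem a_EBn : S_EBn :=
  s_EBn s_w0 a_wq a_w1 a_w2 a_w3 a_ebc

theorem a_EBx : S_EBx :=
  s_EBx s_w0 a_wq a_w1 a_w2 a_w3 a_w4 a_w5 a_w6 s_ccoB

theorem a_EBy : S_EBy :=
  s_EBy s_w0 a_wq a_w1 a_w2 a_w3 a_w4 a_w5 a_w6 s_ccoB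

theorem a_EBm : S_EBm :=
  s_EBm s_w0 a_w2 a_w3 a_w4 a_w5 s_ccoB

theorem a_GI : S_GI :=
  s_GI s_w0 a_w2 a_w5 a_GI0 a_PL a_EBn a_EBx a_EBy a_EBm

theorem a_GC : S_GC :=
  s_GC s_w0 a_wq a_w2 a_w3 a_w4 a_w5 s_CI

theorem a_w7 : S_w7 :=
  s_w7 s_w0 a_wq a_w1 a_w2

theorem a_V2 : S_V2 :=
  s_V2 s_w0 a_w1x a_w2 a_w3 a_w7 s_CI

theorem a_OUT : S_OUT :=
  s_OUT s_w0 a_w2 a_w4 a_w5

theorem a_SL1 : S_SL1 :=
  s_SL1 s_w0 a_wq a_w1 a_w2 a_w4 a_w5 a_w6 s_CI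

theorem a_SL2 : S_SL2 :=
  s_SL2 s_w0 a_w1 a_w2 a_w3 a_w4 a_w5 s_CI

theorem a_SL3 : S_SL3 :=
  s_SL3 s_w0 a_w1 a_w2 a_w4 a_w5 a_w6 s_CI

theorem a_Qcv : S_Qcv :=
  s_Qcv s_Q

theorem a_XY : S_XY :=
  s_XY s_w0 a_w2 a_w3 a_w7 s_CI

theorem a_LQ : S_LQ :=
  s_LQ s_w0 a_wq s_hess a_w1 a_w2 a_w3 a_w7 a_Qcv a_XY

theorem a_R1 : S_R1 :=
  s_R1 s_w0 a_wq s_hess a_w1 a_w2 a_w3 a_w7

theorem a_R2 : S_R2 :=
  s_R2 s_w0 a_wq s_hess a_w1 a_w1x a_w2 a_w7 s_RL a_XY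

theorem a_R3 : S_R3 :=
  s_R3 s_w0 a_wq s_hess a_w1 a_w2 a_w3 a_w7 s_CI a_XY

theorem a_RE : S_RE :=
  s_RE s_w0 a_OUT a_LQ a_R1 a_R2 a_R3

theorem a_sbComp : S_sbComp :=
  s_sbComp s_sbAlg

theorem a_sbLin : S_sbLin :=
  s_sbLin s_sbAlg a_sbComp

theorem a_frame : S_frame :=
  s_frame s_sbAlg a_sbComp a_sbLin

theorem a_w8 : S_w8 :=
  s_w8 s_w0 a_wq a_w1 a_w2

theorem a_NZB : S_NZB :=
  s_NZB s_w0 a_wq a_w2 a_w8

theorem a_mbes : S_mbes :=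
  s_mbes s_w0 a_w2 a_w8 s_bes

theorem a_NZI : S_NZI :=
  s_NZI s_par

theorem a_NZM : S_NZM :=
  s_NZM s_w0 a_wq a_w2 a_w8 s_par a_mbes a_NZI

theorem a_nzp : S_nzp :=
  s_nzp s_nzp1 s_nzp2 s_DI s_sbAlg

theorem a_NZT : S_NZT :=
  s_NZT s_w0 a_w2 a_w8 s_par a_mbes

theorem a_NZ1 : S_NZ1 :=
  s_NZ1 s_w0 a_w1x a_w2 a_w8 s_fockAlg a_nzp a_NZI a_NZT

theorem a_n1 : S_n1 :=
  s_n1 s_dense

theorem a_NZN : S_NZN :=
  s_NZN s_w0 a_wq a_w2 a_w8 s_par a_mbes a_n1 a_XY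

theorem a_NZ : S_NZ :=
  s_NZ s_fock a_frame a_NZB a_NZM a_NZ1 a_NZN a_OUT

theorem a_ME : S_ME :=
  s_ME a_GI a_GC a_V2 a_OUT a_SL1 a_SL2 a_SL3 a_RE a_NZ

theorem a_st1 : S_st1 :=
  s_st1 loc_tb loc_weyl loc_ucp loc_ie loc_green

theorem a_gain : S_gain :=
  s_gain a_ME a_st1 loc_weyl loc_ucp loc_ie loc_green s_prof s_w0 a_wq a_wm a_w1x a_w1 a_w2

theorem a_LT0 : S_LT0 :=
  s_LT0 a_gain s_mom

theorem a_LT : S_LT :=
  s_LT a_LT0 loc_weyl loc_ucp loc_ie loc_green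

theorem a_isoInter : S_isoInter :=
  s_isoInter s_cop

theorem a_jets : S_jets :=
  s_jets s_ext loc_green s_cop a_isoInter

theorem a_end : S_end :=
  s_end s_cop a_isoInter loc_ucp

theorem a_real : S_real :=
  s_real a_LT a_jets a_end s_rig a_isoInter s_cop loc_weyl loc_ucp loc_ie loc_green s_ext s_glue

theorem a_main : S_main :=
  s_main a_real

end Asm
end Vale.Agent.P088
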