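import Mathlib

/-!
# P088: statement-level definitions (metric, unitary connection, local boundary data)
-/

open MeasureTheory Set
open scoped Manifold ContDiff Matrix

noncomputable section
namespace Vale.Agent.P088

/-- Euclidean space of dimension `n`. -/
abbrev En (n : ℕ) : Type := EuclideanSpace ℝ (Fin n)

/-- The `i`-th standard basis vector. -/
def ee {n : ℕ} (i : Fin n) : En n := EuclideanSpace.single i 1

variable {n : ℕ} [NeZero n] {M : Type} [TopologicalSpace M]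
  [ChartedSpace (EuclideanHalfSpace n) M] {N : ℕ}

/-- The `i`-th coordinate vector field of the chart at `p`, at the point with coordinates `y`. -/
def coordVec (p : M) (y : En n) (i : Fin n) :
    TangentSpace (𝓡∂ n) ((extChartAt (𝓡∂ n) p).symm y) :=
  mfderivWithin 𝓘(ℝ, En n) (𝓡∂ n) (extChartAt (𝓡∂ n) p).symm (range (𝓡∂ n)) y (ee i)

/-- Fields of bilinear forms on the tangent spaces. -/
abbrev Bil (n : ℕ) [NeZero n] (M : Type) [TopologicalSpace M]
    [ChartedSpace (EuclideanHalfSpace n) M] : Type :=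
  (x : M) → TangentSpace (𝓡∂ n) x →ₗ[ℝ] TangentSpace (𝓡∂ n) x →ₗ[ℝ] ℝ

/-- One-forms with values in complex `N × N` matrices. -/
abbrev Form1 (n : ℕ) [NeZero n] (M : Type) [TopologicalSpace M]
    [ChartedSpace (EuclideanHalfSpace n) M] (N : ℕ) : Type :=
  (x : M) → TangentSpace (𝓡∂ n) x →ₗ[ℝ] Matrix (Fin N) (Fin N) ℂ

/-- The coefficients `g_{ij}` of `g` in the chart at `p`. -/
def gc (g : Bil n M) (p : M) (y : En n) : Matrix (Fin n) (Fin n) ℝ :=
  Matrix.of fun i j => g _ (coordVec p y i) (coordVec p y j)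

/-- A Riemannian metric, smooth up to the boundary. -/
def IsMetric (g : Bil n M) : Prop :=
  (∀ x v w, g x v w = g x w v) ∧ (∀ x v, v ≠ 0 → 0 < g x v v) ∧
    ∀ (p : M) i j, ContDiffOn ℝ ∞ (fun y => gc g p y i j) (extChartAt (𝓡∂ n) p).target

/-- A smooth one-form with values in `𝔲(N)`, smooth up to the boundary. -/
def IsUnitaryConn (A : Form1 n M N) : Prop :=
  (∀ x v, (A x v)ᴴ = -A x v) ∧
    ∀ (p : M) i a b,
      ContDiffOn ℝ ∞ (fun y => A _ (coordVec p y i) a b) (extChartAt (𝓡∂ n) p).target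

/-- The Riemannian volume measure: in every chart it has density `√ det g_{ij}`. -/
def vol [MeasurableSpace M] (g : Bil n M) : Measure M :=
  ⨆ p : M, Measure.map (extChartAt (𝓡∂ n) p).symm
    ((volume.restrict (extChartAt (𝓡∂ n) p).target).withDensity
      fun y => ENNReal.ofReal √((gc g p y).det))

/-- Smooth sections of the trivial bundle `M × ℂ^N`. -/
def IsSec (n : ℕ) [NeZero n] [ChartedSpace (EuclideanHalfSpace n) M] (F : M → Fin N → ℂ) : Prop :=
  ∀ a, ContMDiff (𝓡∂ n) 𝓘(ℝ, ℂ) ∞ fun x => F x a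

/-- The differential of a complex function in the direction `v`. -/
def dFun (f : M → ℂ) (x : M) (v : TangentSpace (𝓡∂ n) x) : ℂ :=
  mfderiv (𝓡∂ n) 𝓘(ℝ, ℂ) f x v

/-- The covariant derivative `d_A F = dF + A F` in the direction `v`. -/
def dA (A : Form1 n M N) (F : M → Fin N → ℂ) (x : M) (v : TangentSpace (𝓡∂ n) x) : Fin N → ℂ :=
  (fun a => dFun (fun z => F z a) x v) + A x v *ᵥ F x

/-- The pointwise squared norm `|d_A F|_g² = g^{ij} ⟨(d_A F)(e_i), (d_A F)(e_j)⟩`. -/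
def dens (g : Bil n M) (A : Form1 n M N) (F : M → Fin N → ℂ) (x : M) : ℝ :=
  ∑ i, ∑ j, (Matrix.of fun k l : Fin n => g x (ee k) (ee l))⁻¹ i j *
    (star (dA A F x (ee i)) ⬝ᵥ dA A F x (ee j)).re

/-- The Dirichlet energy `∫_M |d_A F|_g² dV_g`. -/
def energy [MeasurableSpace M] (g : Bil n M) (A : Form1 n M N) (F : M → Fin N → ℂ) : ℝ :=
  ∫ x, dens g A F x ∂(vol g)

/-- The quadratic form `⟨Λ f, f⟩` for the boundary values `f` of `F₀`, by Dirichlet's principle: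
the least energy among smooth sections with boundary values `f`. -/
def dnForm [MeasurableSpace M] (g : Bil n M) (A : Form1 n M N) (F₀ : M → Fin N → ℂ) : ℝ :=
  sInf (energy g A '' {F | IsSec n F ∧ ∀ x ∈ (𝓡∂ n).boundary M, F x = F₀ x})

/-- Equality of the data on `Γ`. -/
def SameData [MeasurableSpace M] (Γ : Set M) (g₁ : Bil n M) (A₁ : Form1 n M N) (g₂ : Bil n M)
    (A₂ : Form1 n M N) : Prop :=
  ∀ F₀ : M → Fin N → ℂ, IsSec n F₀ →
    (∃ K, IsCompact K ∧ K ⊆ Γ ∧ ∀ x ∈ (𝓡∂ n).boundary M \ K, F₀ x = 0) →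
    dnForm g₁ A₁ F₀ = dnForm g₂ A₂ F₀

/-- The differential of a matrix-valued function. -/
def dMat (U : M → Matrix (Fin N) (Fin N) ℂ) (x : M) (v : TangentSpace (𝓡∂ n) x) :
    Matrix (Fin N) (Fin N) ℂ :=
  Matrix.of fun a b => dFun (fun z => U z a b) x v

/-- The two pairs are related by a diffeomorphism and a unitary gauge that are trivial on `Γ`. -/
def Related (Γ : Set M) (g₁ : Bil n M) (A₁ : Form1 n M N) (g₂ : Bil n M) (A₂ : Form1 n M N) :
    Prop :=
  ∃ (Φ : Diffeomorph (𝓡∂ n) (𝓡∂ n) M M ∞) (U : M → Matrix (Fin N) (Fin N) ℂ),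
    (∀ a b, ContMDiff (𝓡∂ n) 𝓘(ℝ, ℂ) ∞ fun x => U x a b) ∧
    (∀ x, U x ∈ Matrix.unitaryGroup (Fin N) ℂ) ∧ (∀ x ∈ Γ, Φ x = x ∧ U x = 1) ∧
    (∀ x v w, g₂ x v w =
      g₁ (Φ x) (mfderiv (𝓡∂ n) (𝓡∂ n) Φ x v) (mfderiv (𝓡∂ n) (𝓡∂ n) Φ x w)) ∧
    ∀ x v, A₂ x v =
      (U x)⁻¹ * A₁ (Φ x) (mfderiv (𝓡∂ n) (𝓡∂ n) Φ x v) * U x + (U x)⁻¹ * dMat U x v

end Vale.Agent.P088
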